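import Vale.Agent.P269.G1I.All
import Vale.Agent.P269.G2I.BSpec1

/-!
# [G2-D] elementary rules on the big phase space, row DG
-/

namespace Vale.Agent.P269.G2.H302.DG

open Vale.Agent.P269.CI Vale.Agent.P269.G2

variable {X : CompleteIntersection} {n : ℕ} (E : Fam X n) {F : ℕ → ℕ → List (Ins X) → ℂ}

/-- **[DG]** -/
theorem bDO_add (i : Fin n) (a b : OB X n) : dB i (a + b) = dB i a + dB i b := by
  refine Matrix.ext fun c d => ?_
  exact map_add (MvPowerSeries.pderiv (PowerSeries ℂ) i) (a c d) (b c d)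

/-- **[DG]** -/
theorem bDO_mul (i : Fin n) (a b : OB X n) : dB i (a * b) = dB i a * b + a * dB i b := by
  refine Matrix.ext fun c d => ?_
  change MvPowerSeries.pderiv (PowerSeries ℂ) i ((a * b) c d) =
    (dB i a * b) c d + (a * dB i b) c d
  rw [Matrix.mul_apply, Matrix.mul_apply, Matrix.mul_apply, map_sum, ← Finset.sum_add_distrib]
  refine Finset.sum_congr rfl fun k _ => ?_
  rw [Derivation.leibniz, smul_eq_mul, smul_eq_mul]
  change _ = MvPowerSeries.pderiv (PowerSeries ℂ) i (a c k) * b k d +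
    a c k * MvPowerSeries.pderiv (PowerSeries ℂ) i (b k d)
  ring

/-- **[DG]** -/
theorem bDO_smul (i : Fin n) (r : RB n) (a : OB X n) :
    dB i (r • a) = MvPowerSeries.pderiv (PowerSeries ℂ) i r • a + r • dB i a := by
  refine Matrix.ext fun c d => ?_
  change MvPowerSeries.pderiv (PowerSeries ℂ) i (r * a c d) =
    MvPowerSeries.pderiv (PowerSeries ℂ) i r * a c d +
      r * MvPowerSeries.pderiv (PowerSeries ℂ) i (a c d)
  rw [Derivation.leibniz, smul_eq_mul, smul_eq_mul]
  ring

theorem actB_apply (a : OB X n) (x : Ix X → RB n) (b : Ix X) :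
    actB X n a x b = ∑ c, a b c * x c := rfl

/-- **[DG]** -/
theorem bD_act (i : Fin n) (a : OB X n) (x : Ix X → RB n) (b : Ix X) :
    MvPowerSeries.pderiv (PowerSeries ℂ) i (actB X n a x b) = actB X n (dB i a) x b +
      actB X n a (fun c => MvPowerSeries.pderiv (PowerSeries ℂ) i (x c)) b := by
  rw [actB_apply, actB_apply, actB_apply, map_sum, ← Finset.sum_add_distrib]
  refine Finset.sum_congr rfl fun c _ => ?_
  change _ = MvPowerSeries.pderiv (PowerSeries ℂ) i (a b c) * x c +
    a b c * MvPowerSeries.pderiv (PowerSeries ℂ) i (x c)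
  rw [Derivation.leibniz, smul_eq_mul, smul_eq_mul]
  ring

/-- **[DG]** -/
theorem bstr_comm (a b : OB X n) : strB X n (a * b) = strB X n (b * a) :=
  Matrix.trace_mul_comm a b

theorem pderiv_cb (i : Fin n) (c : ℂ) : MvPowerSeries.pderiv (PowerSeries ℂ) i (cb n c) = 0 := by
  unfold cb
  exact MvPowerSeries.pderiv_C

/-- **[DG]** -/
theorem bD_str (i : Fin n) (a : OB X n) :
    MvPowerSeries.pderiv (PowerSeries ℂ) i (strB X n a) = strB X n (dB i a) := by
  change MvPowerSeries.pderiv (PowerSeries ℂ) i (∑ c, a c c) =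
    ∑ c, MvPowerSeries.pderiv (PowerSeries ℂ) i (a c c)
  rw [map_sum]

/-- **[DG]** -/
theorem bDO_mu (i : Fin n) : dB i (muB X n) = 0 := by
  refine Matrix.ext fun c d => ?_
  change MvPowerSeries.pderiv (PowerSeries ℂ) i
    (Matrix.diagonal (fun b => cb n (mu X b)) c d) = 0
  rw [Matrix.diagonal_apply]
  split_ifs
  · exact pderiv_cb i _
  · exact map_zero _

/-- **[DG]** -/
theorem bDO_R (i : Fin n) : dB i (RBcl X n) = 0 := by
  refine Matrix.ext fun c d => ?_
  exact pderiv_cb i _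

/-- **[DG]** -/
theorem bw_zero (b : Ix X) : wB E F (E.i0 b) 0 = Pi.single b 1 := by
  funext c
  unfold wB
  rw [E.e_i0]
  change (if 0 ≤ 0 then (1 : OB X n) c b else 0) = _
  rw [if_pos le_rfl, Matrix.one_apply, Pi.single_apply]

/-- **[DG]** -/
theorem bw_succ (b : Ix X) (l : ℕ) : wB E F (E.i0 b) (l + 1) = 0 := by
  funext c
  unfold wB
  rw [E.e_i0]
  exact if_neg (Nat.not_succ_le_zero l)

end Vale.Agent.P269.G2.H302.DG
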