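import Vale.Agent.P269.G1I.All
import Vale.Agent.P269.G2I.BSpec1
import Vale.Agent.P269.G2I.BSpec2
import Vale.Agent.P269.G2I.H302.DH
import Vale.Agent.P269.G2I.T.H410_BTrr
import Vale.Agent.P269.G2I.T.H521_SymVir
import Vale.Agent.P269.G2I.T.H780_VirBig

/-!
# [G2-D] descendants, row DF
-/

namespace Vale.Agent.P269.G2.H302

open Vale.Agent.P269.CI
open Vale.Agent.P269.G1 (lst)
open Vale.Agent.P269.H597 (coh)

variable {X : CompleteIntersection} {n : ℕ} (E : Fam X n) {F : ℕ → ℕ → List (Ins X) → ℂ}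

lemma coeff_sr (A : ℕ → List (Ins X) → ℂ) (α : Fin n →₀ ℕ) :
    MvPowerSeries.coeff α (sr E A) = ((∏ i, (α i).factorial : ℕ) : ℚ)⁻¹ •
      PowerSeries.mk (fun d => A d ((lst α).map E.e)) := rfl

lemma sr_add (A B : ℕ → List (Ins X) → ℂ) :
    sr E (fun d L => A d L + B d L) = sr E A + sr E B := by
  ext α : 1
  rw [map_add, coeff_sr, coeff_sr, coeff_sr, ← smul_add]
  congr 1

lemma sr_zero : sr E (fun _ _ => 0) = 0 := by
  ext α : 1
  rw [coeff_sr, map_zero]
  have : (PowerSeries.mk fun _ => (0 : ℂ)) = 0 := by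
    ext
    simp
  rw [this, smul_zero]

lemma sr_sum {ι : Type*} (s : Finset ι) (A : ι → ℕ → List (Ins X) → ℂ) :
    sr E (fun d L => ∑ i ∈ s, A i d L) = ∑ i ∈ s, sr E (A i) := by
  classical
  induction s using Finset.induction_on with
  | empty => simpa using sr_zero E
  | insert a s ha ih =>
    rw [Finset.sum_insert ha, ← ih, ← sr_add]
    congr 1
    funext d L
    rw [Finset.sum_insert ha]

lemma sr_cmul (c : ℂ) (A : ℕ → List (Ins X) → ℂ) :
    sr E (fun d L => c * A d L) = cb n c * sr E A := by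
  ext α : 1
  rw [cb, MvPowerSeries.coeff_C_mul, coeff_sr, coeff_sr, mul_smul_comm]
  congr 1
  ext d
  simp

/-- functions of the point of the small phase space -/
def Sm (F : ℕ → ℕ → List (Ins X) → ℂ) (f : RB n) : Prop :=
  ∀ i, MvPowerSeries.pderiv (PowerSeries ℂ) i f =
    ∑ b, wB E F i 0 b * MvPowerSeries.pderiv (PowerSeries ℂ) (E.i0 b) f

lemma Sm.add {f g : RB n} (hf : Sm E F f) (hg : Sm E F g) : Sm E F (f + g) := by
  intro i
  rw [map_add, hf i, hg i, ← Finset.sum_add_distrib]
  refine Finset.sum_congr rfl fun b _ => ?_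
  rw [map_add, mul_add]

lemma Sm.cb (F : ℕ → ℕ → List (Ins X) → ℂ) (c : ℂ) : Sm E F (cb n c) := by
  intro i
  simp only [G2.cb, MvPowerSeries.pderiv_C, mul_zero, Finset.sum_const_zero]

lemma Sm.zero (F : ℕ → ℕ → List (Ins X) → ℂ) : Sm E F (0 : RB n) := by
  intro i
  simp only [map_zero, mul_zero, Finset.sum_const_zero]

lemma Sm.cmul {f : RB n} (hf : Sm E F f) (c : ℂ) : Sm E F (G2.cb n c * f) := by
  have e : ∀ i, MvPowerSeries.pderiv (PowerSeries ℂ) i (G2.cb n c * f) =
      G2.cb n c * MvPowerSeries.pderiv (PowerSeries ℂ) i f := by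
    intro i
    rw [Derivation.leibniz, smul_eq_mul, smul_eq_mul]
    simp only [G2.cb, MvPowerSeries.pderiv_C, mul_zero, add_zero]
  intro i
  rw [e, hf i, Finset.mul_sum]
  refine Finset.sum_congr rfl fun b _ => ?_
  rw [e, mul_left_comm]

lemma Sm.sum {ι : Type*} (s : Finset ι) {f : ι → RB n}
    (hf : ∀ i ∈ s, Sm E F (f i)) : Sm E F (∑ i ∈ s, f i) := by
  classical
  induction s using Finset.induction_on with
  | empty => simpa using Sm.zero E F
  | insert a s ha ih =>
    rw [Finset.sum_insert ha]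
    exact Sm.add E (hf a (Finset.mem_insert_self a s))
      (ih fun i hi => hf i (Finset.mem_insert_of_mem hi))

lemma sm_VB (hF : IsGW X F) (he : Even X.dim) (a b : Ins X) : Sm E F (VB E F a b) :=
  fun i => pderiv_VB E hF he i a b

lemma sm_loop (hF : IsGW X F) (he : Even X.dim) (k : ℕ) : Sm E F (loopB E F k) := by
  have h : loopB E F k = ∑ m ∈ Finset.range k, ∑ i ∈ Finset.range (k - m), ∑ a : Ix X,
      ∑ b : Ix X, ∑ c : Ix X,
      G2.cb n ((coh X).cf k m i a b c) * VB E F (c, k - 1 - m - i) (b, m) := by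
    unfold loopB
    have h2 : (fun d L => (coh X).loop (F 0 d) k L) = fun d L =>
        ∑ m ∈ Finset.range k, ∑ i ∈ Finset.range (k - m), ∑ a : Ix X,
          ∑ b : Ix X, ∑ c : Ix X, (coh X).cf k m i a b c *
            cor F 0 [(c, k - 1 - m - i), (b, m)] d L := rfl
    rw [h2, sr_sum]
    refine Finset.sum_congr rfl fun m _ => ?_
    rw [sr_sum]
    refine Finset.sum_congr rfl fun i _ => ?_
    rw [sr_sum]
    refine Finset.sum_congr rfl fun a _ => ?_
    rw [sr_sum]
    refine Finset.sum_congr rfl fun b _ => ?_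
    rw [sr_sum]
    refine Finset.sum_congr rfl fun c _ => ?_
    rw [sr_cmul]
    rfl
  rw [h]
  exact Sm.sum E _ fun m _ => Sm.sum E _ fun i _ => Sm.sum E _ fun a _ => Sm.sum E _ fun b _ =>
    Sm.sum E _ fun c _ => Sm.cmul E (sm_VB E hF he _ _) _

lemma sm_vir (hF : IsGW X F) (he : Even X.dim) (h1 : Trr1 F) (k : ℕ) :
    Sm E F (sr E (fun d L => virasoro X F (k + 1) 1 d L)) := by
  rw [vir_big E hF he h1 k]
  refine Sm.add E (Sm.add E ?_ (Sm.cmul E (sm_loop E hF he k) _)) ?_
  · exact fun i => (big E hF he h1).reduce (k + 1) i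
  · split_ifs
    · exact Sm.cb E F _
    · exact Sm.zero E F

lemma count_lst (α : Fin n →₀ ℕ) (j : Fin n) : (lst α).count j = α j := by
  rw [lst, List.count_flatMap, ← Fin.sum_univ_def]
  simp [List.count_replicate]

lemma mem_lst {α : Fin n →₀ ℕ} {i : Fin n} (h : i ∈ lst α) : α i ≠ 0 := by
  have := List.count_pos_iff.2 h
  rw [count_lst] at this
  omega

lemma exists_map {α β : Type*} (f : α → β) (L : List β) (h : ∀ x ∈ L, ∃ a, f a = x) :
    ∃ M : List α, M.map f = L := by
  induction L with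
  | nil => exact ⟨[], rfl⟩
  | cons x L ih =>
    obtain ⟨a, ha⟩ := h x (List.mem_cons_self ..)
    obtain ⟨M, hM⟩ := ih fun y hy => h y (List.mem_cons_of_mem _ hy)
    exact ⟨a :: M, by rw [List.map_cons, ha, hM]⟩

lemma sum_count (p : Fin n → Bool) (L : List (Fin n)) :
    ∑ i with p i = true, L.count i = L.countP p := by
  induction L with
  | nil => simp
  | cons a L ih =>
    have h : ∀ i, (a :: L).count i = L.count i + if a = i then 1 else 0 := fun i => by
      rw [List.count_cons]
      by_cases h : a = i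
      · simp [h]
      · simp [h]
    rw [Finset.sum_congr rfl fun i _ => h i, Finset.sum_add_distrib, ih, List.countP_cons,
      Finset.sum_ite_eq]
    congr 1
    simp

/-- the family of all insertions of level at most `M` -/
noncomputable def famAll (X : CompleteIntersection) (M : ℕ) :
    Fam X (Fintype.card (Ix X × Fin (M + 1))) where
  e i := (((Fintype.equivFin (Ix X × Fin (M + 1))).symm i).1,
    (((Fintype.equivFin (Ix X × Fin (M + 1))).symm i).2 : ℕ))
  i0 b := Fintype.equivFin (Ix X × Fin (M + 1)) (b, 0)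
  e_i0 b := by simp

lemma famAll_e (M : ℕ) (x : Ins X) (h : x.2 ≤ M) : ∃ i, (famAll X M).e i = x := by
  refine ⟨Fintype.equivFin (Ix X × Fin (M + 1)) (x.1, ⟨x.2, by omega⟩), ?_⟩
  unfold famAll
  simp only [Equiv.symm_apply_apply]

lemma exists_bound (L : List (Ins X)) : ∃ M, ∀ x ∈ L, x.2 ≤ M := by
  induction L with
  | nil => exact ⟨0, fun x hx => absurd hx (List.not_mem_nil)⟩
  | cons y L ih =>
    obtain ⟨M, hM⟩ := ih
    refine ⟨max y.2 M, fun x hx => ?_⟩
    rcases List.mem_cons.1 hx with rfl | hx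
    · exact le_max_left _ _
    · exact (hM x hx).trans (le_max_right _ _)

lemma hw (hF : IsGW X F) (hm : Mono1 F) (i : Fin n) (b : Ix X)
    (hi : ¬ (E.e i).1.isRight = true) (hb : (E.e (E.i0 b)).1.isRight = true)
    (γ : Fin n →₀ ℕ) (hγ : ∀ j, (E.e j).1.isRight = true → γ j = 0) :
    MvPowerSeries.coeff γ (wB E F i 0 b) = 0 := by
  rw [E.e_i0] at hb
  obtain ⟨v, rfl⟩ : ∃ v, b = Sum.inr v := by
    rcases b with j | v
    · exact absurd hb (by simp)
    · exact ⟨v, rfl⟩
  obtain ⟨j, hj⟩ : ∃ j, (E.e i).1 = Sum.inl j := by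
    rcases h : (E.e i).1 with j | v
    · exact ⟨j, rfl⟩
    · rw [h] at hi
      exact absurd rfl hi
  have e1 : wB E F i 0 (Sum.inr v) = SB E F (E.e i).2 (Sum.inr v) (E.e i).1 := by
    unfold wB
    rw [if_pos (Nat.zero_le _), Nat.sub_zero]
  rw [e1, hj]
  rcases (E.e i).2 with - | k
  · rw [SB_zero, Matrix.one_apply_ne (by simp), map_zero]
  · change MvPowerSeries.coeff γ (∑ a : Ix X, pairingInv X a (Sum.inr v) •
      VB E F (Sum.inl j, k) (a, 0)) = 0
    rw [map_sum]
    refine Finset.sum_eq_zero fun a _ => ?_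
    rcases a with c | u
    · have : pairingInv X (Sum.inl c) (Sum.inr v) = 0 := rfl
      rw [this, zero_smul, map_zero]
    · have h2 : MvPowerSeries.coeff γ (VB E F (Sum.inl j, k) (Sum.inr u, 0)) = 0 := by
        unfold VB
        rw [coeff_sr]
        have h3 : (PowerSeries.mk fun d =>
            cor F 0 [(Sum.inl j, k), (Sum.inr u, 0)] d ((lst γ).map E.e)) = 0 := by
          ext d
          rw [PowerSeries.coeff_mk, map_zero]
          have h4 := hF.symm 0 d [] ((lst γ).map E.e) (Sum.inl j, k) (Sum.inr u, 0)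
          have h5 : F 0 d ((Sum.inr u, 0) :: (Sum.inl j, k) :: (lst γ).map E.e) = 0 := by
            refine hm d u 0 _ fun x hx => ?_
            rcases List.mem_cons.1 hx with rfl | hx
            · exact ⟨j, rfl⟩
            · obtain ⟨i', hi', rfl⟩ := List.mem_map.1 hx
              rcases h : (E.e i').1 with j' | v'
              · exact ⟨j', rfl⟩
              · exact absurd (hγ i' (by rw [h]; rfl)) (mem_lst hi')
          rw [List.nil_append, List.nil_append, h5, mul_zero] at h4
          exact h4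
        rw [h3, smul_zero]
      rw [show pairingInv X (Sum.inr u) (Sum.inr v) • VB E F (Sum.inl j, k) (Sum.inr u, 0) =
        MvPowerSeries.C (PowerSeries.C (pairingInv X (Sum.inr u) (Sum.inr v))) *
          VB E F (Sum.inl j, k) (Sum.inr u, 0) from ?_]
      · rw [MvPowerSeries.coeff_C_mul, h2, mul_zero]
      · ext β γ'
        rw [MvPowerSeries.coeff_C_mul, PowerSeries.coeff_C_mul]
        rfl

/-- **[DF]** -/
theorem vir_descend (hF : IsGW X F) (he : Even X.dim) (h1 : Trr1 F) (hm : Mono1 F) (k N0 : ℕ)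
    (h : ∀ d (L : List (Ix X)), (L.countP fun a => a.isRight) ≤ N0 →
      virasoro X F (k + 1) 1 d (L.map fun a => (a, 0)) = 0)
    (d : ℕ) (L : List (Ins X)) (hL : (L.countP fun x => x.1.isRight) ≤ N0) :
    virasoro X F (k + 1) 1 d L = 0 := by
  obtain ⟨M, hM⟩ := exists_bound L
  set E := famAll X M with hE
  obtain ⟨L', rfl⟩ := exists_map E.e L fun x hx => famAll_e M x (hM x hx)
  rw [List.countP_map] at hL
  have h0 : ∀ α : Fin (Fintype.card (Ix X × Fin (M + 1))) →₀ ℕ,
      ∑ i with (E.e i).1.isRight = true, α i ≤ N0 →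
      MvPowerSeries.coeff α (sr E (fun d L => virasoro X F (k + 1) 1 d L)) = 0 := by
    refine descend_le (fun i => (E.e i).2) E.i0 (fun b => by rw [E.e_i0])
      (fun i => (E.e i).1.isRight = true) N0 (fun i b => wB E F i 0 b)
      _ (sm_vir E hF he h1 k) (fun i b hi hb γ hγ => hw E hF hm i b hi hb γ hγ)
      fun α hα hα2 => ?_
    rw [coeff_sr]
    have e1 : (lst α).map E.e = ((lst α).map fun i => (E.e i).1).map fun a => (a, 0) := by
      rw [List.map_map]
      refine List.map_congr_left fun i hi => ?_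
      have h2 : (E.e i).2 = 0 := by
        by_contra h3
        exact mem_lst hi (hα i (Nat.pos_of_ne_zero h3))
      exact Prod.ext rfl h2
    have e3 : (((lst α).map fun i => (E.e i).1).countP fun a => a.isRight) ≤ N0 := by
      rw [List.countP_map]
      refine le_trans (le_of_eq ?_) hα2
      rw [← sum_count]
      exact Finset.sum_congr rfl fun i _ => count_lst α i
    have e2 : (PowerSeries.mk fun d => virasoro X F (k + 1) 1 d ((lst α).map E.e)) = 0 := by
      ext d
      rw [PowerSeries.coeff_mk, e1, h d _ e3, map_zero]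
    rw [e2, smul_zero]
  set α : Fin (Fintype.card (Ix X × Fin (M + 1))) →₀ ℕ :=
    Finsupp.equivFunOnFinite.symm fun j => L'.count j with hα
  have hperm : L'.Perm (lst α) := by
    rw [List.perm_iff_count]
    intro j
    rw [count_lst]
    rfl
  have hN : ∑ i with (E.e i).1.isRight = true, α i ≤ N0 := by
    refine le_trans (le_of_eq ?_) hL
    rw [← sum_count]
    rfl
  have h2 := h0 α hN
  rw [coeff_sr] at h2
  have hq : ((∏ i, (α i).factorial : ℕ) : ℚ) ≠ 0 :=
    Nat.cast_ne_zero.2 (Finset.prod_ne_zero_iff.2 fun i _ => Nat.factorial_ne_zero _)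
  have h3 := congrArg (fun z => ((∏ i, (α i).factorial : ℕ) : ℚ) • z) h2
  simp only [smul_smul, mul_inv_cancel₀ hq, one_smul, smul_zero] at h3
  have h4 := congrArg (PowerSeries.coeff d) h3
  rw [PowerSeries.coeff_mk, map_zero] at h4
  rw [← h4]
  exact symF_vir E hF he k d L' (lst α) hperm

end Vale.Agent.P269.G2.H302
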